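import Vale.Agent.P153.R2.SS.Trace

/-!
# P153, block SS: stability of the flow, uniformly up to the real line
-/

set_option autoImplicit false

open Set Metric Filter Topology Vale.Agent.P164
open Vale.Agent.P153.R2.HULL

namespace Vale.Agent.P153.R2.SS

variable {W W' : ℝ → ℝ} {γ : ℝ → ℂ} {T t r δ : ℝ} {z : ℂ}

lemma Z_diff {s : ℝ} (hWW : |W' s - W s| ≤ δ) :
    ‖Zf W' z s - Zf W z s‖ ≤ ‖gf W' z s - gf W z s‖ + δ := by
  have e : Zf W' z s - Zf W z s = (gf W' z s - gf W z s) - ((W' s - W s : ℝ) : ℂ) := by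
    rw [Zf_eq, Zf_eq]; push_cast; ring
  rw [e]
  refine (norm_sub_le _ _).trans ?_
  rw [Complex.norm_real, Real.norm_eq_abs]
  linarith

lemma close_aux (hr : 0 < r) (hδ : 0 ≤ δ) (hd : z ∈ loewnerDomain W T)
    (hlow : ∀ s ∈ Icc 0 T, r ≤ ‖Zf W z s‖) (hWW : ∀ s ∈ Icc 0 T, |W' s - W s| ≤ δ)
    {s' : ℝ} (hs' : s' ∈ Icc 0 T) (h' : z ∈ loewnerDomain W' s')
    (hlow' : ∀ u ∈ Ico 0 s', r / 2 ≤ ‖Zf W' z u‖) :
    ‖gf W' z s' - gf W z s'‖ ≤ δ * (Real.exp (4 / r ^ 2 * s') - 1) := by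
  have hz : 0 < z.im := im_pos_of_dom (hs'.1.trans hs'.2) hd
  have hsub : Icc 0 s' ⊆ Icc 0 T := Icc_subset_Icc_right hs'.2
  have hK : 0 < 4 / r ^ 2 := by positivity
  have hds' : z ∈ loewnerDomain W s' := dom_mono hs'.2 hd
  have key := norm_le_gronwallBound_of_norm_deriv_right_le
    (f := fun u => gf W' z u - gf W z u) (f' := fun u => 2 / Zf W' z u - 2 / Zf W z u)
    (δ := 0) (K := 4 / r ^ 2) (ε := 4 / r ^ 2 * δ) (a := 0) (b := s')
    ((gf_cont hs'.1 h').sub (gf_cont hs'.1 hds'))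
    (fun u hu => by
      have h1 := gf_hasDeriv h' ⟨hu.1, hu.2.le⟩
      have h2 := gf_hasDeriv hds' ⟨hu.1, hu.2.le⟩
      have h3 : Icc u s' ∈ 𝓝[Ici u] u := Icc_mem_nhdsGE hu.2
      exact ((h1.sub h2).mono (Icc_subset_Icc_left hu.1)).mono_of_mem_nhdsWithin h3)
    (by
      show ‖gf W' z 0 - gf W z 0‖ ≤ 0
      rw [gf_zero hz, gf_zero hz, sub_self, norm_zero])
    (fun u hu => by
      have h1 := hlow u (hsub ⟨hu.1, hu.2.le⟩)
      have h2 := hlow' u hu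
      have h3 := Z_diff (z := z) (hWW u (hsub ⟨hu.1, hu.2.le⟩))
      have n1 : Zf W z u ≠ 0 := by
        intro h; rw [h, norm_zero] at h1; linarith
      have n2 : Zf W' z u ≠ 0 := by
        intro h; rw [h, norm_zero] at h2; linarith
      have e : 2 / Zf W' z u - 2 / Zf W z u =
          2 * (Zf W z u - Zf W' z u) / (Zf W' z u * Zf W z u) := by
        field_simp
      rw [e, norm_div, norm_mul, norm_mul, Complex.norm_ofNat, norm_sub_rev]
      have h4 : r ^ 2 / 2 ≤ ‖Zf W' z u‖ * ‖Zf W z u‖ := by nlinarith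
      have h5 : 0 < r ^ 2 / 2 := by positivity
      calc 2 * ‖Zf W' z u - Zf W z u‖ / (‖Zf W' z u‖ * ‖Zf W z u‖)
          ≤ 2 * ‖Zf W' z u - Zf W z u‖ / (r ^ 2 / 2) := by gcongr
        _ = 4 / r ^ 2 * ‖Zf W' z u - Zf W z u‖ := by field_simp; ring
        _ ≤ 4 / r ^ 2 * (‖gf W' z u - gf W z u‖ + δ) := by gcongr
        _ = 4 / r ^ 2 * ‖gf W' z u - gf W z u‖ + 4 / r ^ 2 * δ := by ring)
    s' ⟨hs'.1, le_rfl⟩
  rw [gronwallBound_of_K_ne_0 hK.ne'] at key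
  simp only [zero_mul, zero_add, sub_zero] at key
  rwa [mul_div_cancel_left₀ _ hK.ne'] at key

/-- The flows are close as long as the first one stays away from the driver. -/
theorem close (hr : 0 < r) (hδ : 0 ≤ δ) (hW : Continuous W) (hW' : Continuous W')
    (hd : z ∈ loewnerDomain W T)
    (hlow : ∀ s ∈ Icc 0 T, r ≤ ‖Zf W z s‖) (hWW : ∀ s ∈ Icc 0 T, |W' s - W s| ≤ δ)
    (hδr : δ * Real.exp (4 / r ^ 2 * T) < r / 2)
    {s' : ℝ} (hs' : s' ∈ Icc 0 T) (h' : z ∈ loewnerDomain W' s') :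
    ∀ u ∈ Icc 0 s', ‖Zf W' z u - Zf W z u‖ ≤ δ * Real.exp (4 / r ^ 2 * T) := by
  have hsub : Icc 0 s' ⊆ Icc 0 T := Icc_subset_Icc_right hs'.2
  have hK : 0 < 4 / r ^ 2 := by positivity
  -- the estimate at a time, if there is no bad time before
  have est : ∀ u ∈ Icc 0 s', (∀ v ∈ Ico 0 u, ‖Zf W' z v - Zf W z v‖ < r / 2) →
      ‖Zf W' z u - Zf W z u‖ ≤ δ * Real.exp (4 / r ^ 2 * T) := by
    intro u hu hv
    have h1 := close_aux (s' := u) hr hδ hd hlow hWW (hsub hu) (dom_mono hu.2 h') (by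
      intro v hv'
      have h2 := hv v hv'
      have h3 := hlow v (hsub ⟨hv'.1, hv'.2.le.trans hu.2⟩)
      have h4 := norm_sub_norm_le (Zf W z v) (Zf W' z v)
      rw [norm_sub_rev] at h4
      linarith)
    have h2 := Z_diff (z := z) (hWW u (hsub hu))
    have h3 : Real.exp (4 / r ^ 2 * u) ≤ Real.exp (4 / r ^ 2 * T) := by
      refine Real.exp_le_exp.2 ?_
      exact mul_le_mul_of_nonneg_left (hu.2.trans hs'.2) hK.le
    nlinarith
  by_cases hbad : ∃ u ∈ Icc 0 s', r / 2 ≤ ‖Zf W' z u - Zf W z u‖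
  · exfalso
    have hZc : ContinuousOn (fun u => ‖Zf W' z u - Zf W z u‖) (Icc 0 s') := by
      have h1 : ContinuousOn (fun u => Zf W' z u) (Icc 0 s') := by
        have := (gf_cont hs'.1 h').sub
          (Complex.continuous_ofReal.comp hW').continuousOn
        refine this.congr fun u _ => ?_
        rw [Zf_eq]; rfl
      have h2 : ContinuousOn (fun u => Zf W z u) (Icc 0 s') := by
        have := (gf_cont hs'.1 (dom_mono hs'.2 hd)).sub
          (Complex.continuous_ofReal.comp hW).continuousOn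
        refine this.congr fun u _ => ?_
        rw [Zf_eq]; rfl
      exact (h1.sub h2).norm
    have hS : IsCompact (Icc 0 s' ∩ (fun u => ‖Zf W' z u - Zf W z u‖) ⁻¹' Ici (r / 2)) :=
      isCompact_Icc.of_isClosed_subset (hZc.preimage_isClosed_of_isClosed isClosed_Icc isClosed_Ici)
        inter_subset_left
    obtain ⟨u₀, hu₀, hmin⟩ := hS.exists_isMinOn
      (by obtain ⟨u, hu, h⟩ := hbad; exact ⟨u, hu, h⟩) continuousOn_id
    have h1 := est u₀ hu₀.1 (by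
      intro v hv
      by_contra hcon
      have h2 : u₀ ≤ v := isMinOn_iff.1 hmin v ⟨⟨hv.1, hv.2.le.trans hu₀.1.2⟩, not_lt.1 hcon⟩
      exact absurd hv.2 (not_lt.2 h2))
    have h2 : r / 2 ≤ ‖Zf W' z u₀ - Zf W z u₀‖ := hu₀.2
    linarith
  · push Not at hbad
    intro u hu
    exact est u hu fun v hv => hbad v ⟨hv.1, hv.2.le.trans hu.2⟩

/-- A point which stays away from the driver stays alive under small perturbations. -/
theorem alive (hT : 0 ≤ T) (hr : 0 < r) (hδ : 0 ≤ δ) (hW : Continuous W) (hW' : Continuous W')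
    (hd : z ∈ loewnerDomain W T)
    (hlow : ∀ s ∈ Icc 0 T, r ≤ ‖Zf W z s‖) (hWW : ∀ s ∈ Icc 0 T, |W' s - W s| ≤ δ)
    (hδr : δ * Real.exp (4 / r ^ 2 * T) < r / 2) : z ∈ loewnerDomain W' T := by
  have hz : 0 < z.im := im_pos_of_dom hT hd
  refine alive_of_lower hW' hz hT (c := Real.exp (Real.log z.im - 8 / r ^ 2 * T))
    (Real.exp_pos _) fun s h0 h1 h2 => ?_
  have hcl := close hr hδ hW hW' hd hlow hWW hδr ⟨h0, h1.le⟩ h2
  have h3 : ‖Real.log (Zf W' z s).im - Real.log (Zf W' z 0).im‖ ≤ 8 / r ^ 2 * ‖s - 0‖ := by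
    refine (convex_Icc 0 s).norm_image_sub_le_of_norm_hasDerivWithin_le
      (f := fun u => Real.log (Zf W' z u).im) (f' := fun u => -(2 / ‖Zf W' z u‖ ^ 2))
      (fun u hu => logY_hasDeriv h2 hu) ?_ ⟨le_rfl, h0⟩ ⟨h0, le_rfl⟩
    intro u hu
    have h4 := hcl u hu
    have h5 := hlow u ⟨hu.1, hu.2.trans h1.le⟩
    have h6 := norm_sub_norm_le (Zf W z u) (Zf W' z u)
    rw [norm_sub_rev] at h6
    have h7 : r / 2 ≤ ‖Zf W' z u‖ := by linarith
    have h8 : r ^ 2 / 4 ≤ ‖Zf W' z u‖ ^ 2 := by nlinarith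
    rw [norm_neg, Real.norm_eq_abs, abs_of_nonneg (by positivity)]
    calc 2 / ‖Zf W' z u‖ ^ 2 ≤ 2 / (r ^ 2 / 4) := by gcongr
      _ = 8 / r ^ 2 := by field_simp; ring
  have e0 : (Zf W' z 0).im = z.im := by rw [Zf_zero hz]; simp
  rw [e0, sub_zero, Real.norm_eq_abs, Real.norm_eq_abs, abs_of_nonneg h0] at h3
  have h4 : 8 / r ^ 2 * s ≤ 8 / r ^ 2 * T := mul_le_mul_of_nonneg_left h1.le (by positivity)
  have h5 := neg_abs_le (Real.log (Zf W' z s).im - Real.log z.im)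
  rw [← Real.le_log_iff_exp_le (Zf_im_pos h0 h2)]
  linarith

/-- A compact set off the trace is not touched by the hulls of close drivers. -/
theorem Tr.avoid_close (h : Tr W γ) (hW : Continuous W) (hT : 0 ≤ T) {K : Set ℂ}
    (hK : IsCompact K) (hKγ : ∀ s ∈ Icc 0 T, γ s ∉ K) :
    ∃ δ > 0, ∀ W' : ℝ → ℝ, Continuous W' → (∀ s ∈ Icc 0 T, |W' s - W s| ≤ δ) →
      ∀ z ∈ K, 0 < z.im → z ∈ loewnerDomain W' T := by
  obtain ⟨r, hr, h1⟩ := h.avoid hW T hK hKγ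
  have he : 0 < Real.exp (4 / r ^ 2 * T) := Real.exp_pos _
  refine ⟨r / 4 / Real.exp (4 / r ^ 2 * T), by positivity, ?_⟩
  intro W' hW' hWW z hz hzi
  refine alive hT hr (by positivity) hW hW' (h1 T ⟨hT, le_rfl⟩ z hz hzi).1
    (fun s hs => (h1 s hs z hz hzi).2) hWW ?_
  rw [div_mul_cancel₀ _ he.ne']
  linarith

end Vale.Agent.P153.R2.SS
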