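import Vale.Agent.P153.R2.HULL.Bounds
import Vale.Agent.P153.R2.ARCX.Nb
import Vale.Agent.P153.R2.Final.Defs

/-!
# P153, block SS: a simple trace is the uniform limit of `f_t (W_t + i y)`

`trace_near`: if `γ` is the simple trace of `W`, then for all `T`, `ε` there is `r > 0` with:
`t ∈ [0, T]`, `z` alive at time `t` and `‖Zf W z t‖ < r` imply `dist z (γ t) ≤ ε`.
`avoid`: a compact set off `γ [0, T]` stays at a positive distance from the driver.
-/

set_option autoImplicit false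

open Set Metric Filter Topology Vale.Agent.P164
open Vale.Agent.P153.R2.HULL

namespace Vale.Agent.P153.R2.SS

open Vale.Agent.P153.R2.ARCX (cut exists_short_cut not_joined_union closure_cut_meets)

/-! ### General -/

theorem exists_pos_bound {E : Type*} [TopologicalSpace E] {K : Set E} (hK : IsCompact K)
    {f : E → ℝ} (hf : ContinuousOn f K) (hpos : ∀ x ∈ K, 0 < f x) : ∃ m > 0, ∀ x ∈ K, m ≤ f x := by
  rcases K.eq_empty_or_nonempty with h0 | h0
  · exact ⟨1, one_pos, fun x hx => by rw [h0] at hx; exact absurd hx (notMem_empty _)⟩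
  · obtain ⟨x₀, hx₀, hmin⟩ := hK.exists_isMinOn h0 hf
    exact ⟨f x₀, hpos x₀ hx₀, fun x hx => isMinOn_iff.1 hmin x hx⟩

/-- Points outside a disc are joined outside the disc. -/
theorem joined_outside {x₀ z y : ℂ} {e : ℝ} (_he : 0 ≤ e) (hz : e < ‖z - x₀‖) (hy : e < ‖y - x₀‖)
    {K : Set ℂ} (hK : K ⊆ closedBall x₀ e) : JoinedIn Kᶜ z y := by
  have h1 : IsPathConnected {w : ℂ | e < ‖w - x₀‖} := by
    have h2 : {w : ℂ | e < ‖w - x₀‖} =
        (fun q : ℝ × ℝ => x₀ + (q.1 : ℂ) * Complex.exp (q.2 * Complex.I)) '' (Ioi e ×ˢ univ) := by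
      ext w
      constructor
      · intro hw
        refine ⟨(‖w - x₀‖, (w - x₀).arg), ⟨hw, mem_univ _⟩, ?_⟩
        simp only
        rw [Complex.norm_mul_exp_arg_mul_I]
        ring
      · rintro ⟨⟨r, θ⟩, ⟨hr, -⟩, rfl⟩
        have hr' : e < r := hr
        show e < ‖x₀ + (r : ℂ) * Complex.exp (θ * Complex.I) - x₀‖
        rw [add_sub_cancel_left, norm_mul, Complex.norm_exp_ofReal_mul_I, mul_one,
          Complex.norm_real, Real.norm_eq_abs]
        exact hr'.trans_le (le_abs_self r)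
    rw [h2]
    refine IsPathConnected.image ?_ (by fun_prop)
    exact ((convex_Ioi e).prod convex_univ).isPathConnected ⟨(e + 1, 0), by simp, mem_univ _⟩
  refine (h1.joinedIn z hz y hy).mono fun w hw hwK => ?_
  have h3 := hK hwK
  rw [mem_closedBall, dist_eq_norm] at h3
  exact absurd h3 (not_le.2 hw)

theorem unif_inj {γ : ℝ → ℂ} {T ω : ℝ} (hc : ContinuousOn γ (Icc 0 T)) (hi : InjOn γ (Icc 0 T))
    (hω : 0 < ω) : ∃ δ > 0, ∀ s ∈ Icc 0 T, ∀ s' ∈ Icc 0 T, dist (γ s) (γ s') < δ →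
      |s - s'| < ω := by
  have hK : IsCompact ((Icc (0 : ℝ) T ×ˢ Icc (0 : ℝ) T) ∩ {q : ℝ × ℝ | ω ≤ |q.1 - q.2|}) :=
    (isCompact_Icc.prod isCompact_Icc).inter_right (isClosed_le continuous_const (by fun_prop))
  have hf : ContinuousOn (fun q : ℝ × ℝ => dist (γ q.1) (γ q.2))
      ((Icc (0 : ℝ) T ×ˢ Icc (0 : ℝ) T) ∩ {q : ℝ × ℝ | ω ≤ |q.1 - q.2|}) :=
    continuous_dist.comp_continuousOn
      ((hc.comp continuousOn_fst fun q hq => hq.1.1).prodMk
        (hc.comp continuousOn_snd fun q hq => hq.1.2))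
  obtain ⟨m, hm, h⟩ := exists_pos_bound hK hf (by
    rintro ⟨s, s'⟩ ⟨⟨h1, h2⟩, h3⟩
    refine dist_pos.2 fun he => ?_
    have h4 : s = s' := hi h1 h2 he
    have h5 : ω ≤ |s - s'| := h3
    rw [h4, sub_self, abs_zero] at h5
    linarith)
  refine ⟨m, hm, fun s hs s' hs' hd => ?_⟩
  by_contra hcon
  exact absurd hd (not_lt.2 (h (s, s') ⟨⟨hs, hs'⟩, not_lt.1 hcon⟩))

theorem im_small {γ : ℝ → ℂ} {T ω : ℝ} (hc : ContinuousOn γ (Icc 0 T))
    (him : ∀ t ∈ Icc 0 T, 0 < t → 0 < (γ t).im) (hω : 0 < ω) :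
    ∃ δ > 0, ∀ s ∈ Icc 0 T, (γ s).im < δ → s < ω := by
  have hsub : Icc ω T ⊆ Icc 0 T := Icc_subset_Icc_left hω.le
  obtain ⟨m, hm, h⟩ := exists_pos_bound (isCompact_Icc (a := ω) (b := T))
    (f := fun s => (γ s).im) (Complex.continuous_im.comp_continuousOn (hc.mono hsub))
    (fun s hs => him s (hsub hs) (hω.trans_le hs.1))
  refine ⟨m, hm, fun s hs hlt => ?_⟩
  by_contra hcon
  exact absurd hlt (not_lt.2 (h s ⟨not_lt.1 hcon, hs.2⟩))

/-! ### Traces -/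

/-- `γ` is the simple trace of `W` (with `P164.loewnerDomain`) -/
structure Tr (W : ℝ → ℝ) (γ : ℝ → ℂ) : Prop where
  cont : ContinuousOn γ (Ici 0)
  inj : InjOn γ (Ici 0)
  start : γ 0 = (W 0 : ℂ)
  im_pos : ∀ t : ℝ, 0 < t → 0 < (γ t).im
  dom : ∀ t : ℝ, 0 ≤ t → loewnerDomain W t = {z : ℂ | 0 < z.im} \ γ '' Icc 0 t

theorem Tr.of_simple {W : ℝ → ℝ} {γ : ℝ → ℂ} (h : Final.IsSimpleTrace W γ) : Tr W γ := by
  refine ⟨h.cont, h.inj, h.start, h.im_pos, fun t ht => ?_⟩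
  have h1 : Final.loewnerDomain W t = loewnerDomain W t := rfl
  rw [← h1, h.domain_eq t ht]
  ext z
  constructor
  · rintro ⟨hz, hz'⟩
    refine ⟨hz, ?_⟩
    rintro ⟨s, hs, rfl⟩
    rcases eq_or_lt_of_le hs.1 with h0 | h0
    · have hz1 : 0 < (γ s).im := hz
      rw [← h0, h.start] at hz1
      simp at hz1
    · exact hz' ⟨s, ⟨h0, hs.2⟩, rfl⟩
  · rintro ⟨hz, hz'⟩
    exact ⟨hz, fun hcon => hz' (image_mono Ioc_subset_Icc_self hcon)⟩

variable {W : ℝ → ℝ} {γ : ℝ → ℂ} {T t : ℝ} {z : ℂ}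

theorem Tr.contT (h : Tr W γ) : ContinuousOn γ (Icc 0 T) := h.cont.mono fun _ hs => hs.1

theorem Tr.injT (h : Tr W γ) : InjOn γ (Icc 0 T) := h.inj.mono fun _ hs => hs.1

theorem Tr.not_dom (h : Tr W γ) {s : ℝ} (hs : 0 ≤ s) (hst : s ≤ t) : γ s ∉ loewnerDomain W t := by
  rw [h.dom t (hs.trans hst)]
  exact fun hc => hc.2 ⟨s, ⟨hs, hst⟩, rfl⟩

theorem Tr.mem_dom (h : Tr W γ) {u : ℝ} (ht : 0 ≤ t) (htu : t < u) : γ u ∈ loewnerDomain W t := by
  rw [h.dom t ht]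
  refine ⟨h.im_pos u (ht.trans_lt htu), ?_⟩
  rintro ⟨s, hs, he⟩
  have := h.inj (mem_Ici.2 hs.1) (mem_Ici.2 (ht.trans htu.le)) he
  linarith [hs.2]

theorem Tr.im_nonneg (h : Tr W γ) (ht : 0 ≤ t) : 0 ≤ (γ t).im := by
  rcases ht.eq_or_lt with h0 | h0
  · rw [← h0, h.start, Complex.ofReal_im]
  · exact (h.im_pos t h0).le

theorem Tr.compl_dom (h : Tr W γ) (ht : 0 ≤ t) :
    (loewnerDomain W t)ᶜ = {z : ℂ | z.im ≤ 0} ∪ γ '' Icc 0 t := by
  rw [h.dom t ht]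
  ext z
  simp only [mem_compl_iff, Set.mem_sdiff, mem_union, not_and, not_not]
  constructor
  · intro h1
    rcases le_or_gt z.im 0 with h2 | h2
    · exact Or.inl h2
    · exact Or.inr (h1 h2)
  · rintro (h1 | h1) h2
    · exact absurd (show 0 < z.im from h2) (not_lt.2 h1)
    · exact h1

/-- Small subsets of the complement of the domain are contained in small connected ones. -/
theorem Tr.small_set (h : Tr W γ) (T : ℝ) {ε : ℝ} (hε : 0 < ε) : ∃ δ > 0, ∀ t ∈ Icc 0 T,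
    ∀ F : Set ℂ, F ⊆ (loewnerDomain W t)ᶜ → IsClosed F → F.Nonempty →
      (∀ x ∈ F, ∀ y ∈ F, dist x y ≤ δ) →
      ∃ B : Set ℂ, IsCompact B ∧ IsPreconnected B ∧ F ⊆ B ∧ B ⊆ (loewnerDomain W t)ᶜ ∧
        ∀ x ∈ F, B ⊆ closedBall x ε := by
  obtain ⟨ω, hω, hunif⟩ := Metric.uniformContinuousOn_iff.1
    (isCompact_Icc.uniformContinuousOn_of_continuous (h.contT (T := T))) (ε / 8) (by positivity)
  obtain ⟨δ₁, hδ₁, hinj⟩ := unif_inj (h.contT (T := T)) h.injT hω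
  obtain ⟨δ₂, hδ₂, him⟩ := im_small (h.contT (T := T)) (fun t _ h0 => h.im_pos t h0) hω
  obtain ⟨δ, hδ, k1, k2, k3⟩ : ∃ δ > 0, δ < δ₁ ∧ δ < δ₂ ∧ δ ≤ ε / 8 := by
    refine ⟨min (min (δ₁ / 2) (δ₂ / 2)) (ε / 8), by positivity, ?_, ?_, min_le_right _ _⟩
    · exact (min_le_left _ _).trans_lt ((min_le_left _ _).trans_lt (by linarith))
    · exact (min_le_left _ _).trans_lt ((min_le_right _ _).trans_lt (by linarith))
  refine ⟨δ, hδ, ?_⟩
  intro t ht F hF hFc hFn hFd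
  have hsubT : Icc 0 t ⊆ Icc 0 T := Icc_subset_Icc_right ht.2
  have hLH : IsClosed {z : ℂ | z.im ≤ 0} := isClosed_le Complex.continuous_im continuous_const
  have hLHc : Convex ℝ {z : ℂ | z.im ≤ 0} := convex_halfSpace_im_le 0
  rw [h.compl_dom ht.1] at hF ⊢
  have hct : ContinuousOn γ (Icc 0 t) := h.contT
  rcases (Icc 0 t ∩ γ ⁻¹' F).eq_empty_or_nonempty with hI | hI
  · -- no point of the curve
    have hFL : F ⊆ {z : ℂ | z.im ≤ 0} := by
      intro x hx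
      rcases hF hx with h1 | ⟨s, hs, rfl⟩
      · exact h1
      · exact absurd (show s ∈ Icc 0 t ∩ γ ⁻¹' F from ⟨hs, hx⟩) (by rw [hI]; exact notMem_empty _)
    obtain ⟨x₀, hx₀⟩ := hFn
    refine ⟨closedBall x₀ δ ∩ {z : ℂ | z.im ≤ 0}, (isCompact_closedBall _ _).inter_right hLH,
      ((convex_closedBall x₀ δ).inter hLHc).isPreconnected, ?_, ?_, ?_⟩
    · exact fun x hx => ⟨mem_closedBall.2 (hFd x hx x₀ hx₀), hFL hx⟩
    · exact fun x hx => Or.inl hx.2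
    · intro x hx y hy
      rw [mem_closedBall]
      have h1 := mem_closedBall.1 hy.1
      have h2 := hFd x₀ hx₀ x hx
      have h3 := dist_triangle y x₀ x
      linarith
  · have hIc : IsCompact (Icc 0 t ∩ γ ⁻¹' F) := by
      have := hct.preimage_isClosed_of_isClosed isClosed_Icc hFc
      exact isCompact_Icc.of_isClosed_subset this inter_subset_left
    obtain ⟨s₁, hs₁, hmin⟩ := hIc.exists_isMinOn hI continuousOn_id
    obtain ⟨s₂, hs₂, hmax⟩ := hIc.exists_isMaxOn hI continuousOn_id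
    have hmin' : ∀ s ∈ Icc 0 t ∩ γ ⁻¹' F, s₁ ≤ s := fun s hs => isMinOn_iff.1 hmin s hs
    have hmax' : ∀ s ∈ Icc 0 t ∩ γ ⁻¹' F, s ≤ s₂ := fun s hs => isMaxOn_iff.1 hmax s hs
    have hs12 : s₁ ≤ s₂ := hmin' s₂ hs₂
    have hd12 : |s₁ - s₂| < ω := hinj s₁ (hsubT hs₁.1) s₂ (hsubT hs₂.1)
      ((hFd _ hs₁.2 _ hs₂.2).trans_lt k1)
    by_cases hm : ∃ y ∈ F, y.im ≤ 0
    · -- near the real line
      obtain ⟨y, hy, hyim⟩ := hm
      have him2 : (γ s₂).im < δ₂ := by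
        have h1 := Complex.abs_im_le_norm (γ s₂ - y)
        have h2 := hFd _ hs₂.2 _ hy
        rw [dist_eq_norm] at h2
        rw [Complex.sub_im] at h1
        have h3 := le_abs_self ((γ s₂).im - y.im)
        linarith
      have hs2ω : s₂ < ω := him s₂ (hsubT hs₂.1) him2
      have hnear : ∀ s ∈ Icc 0 s₂, dist (γ s) (γ 0) < ε / 8 := by
        intro s hs
        refine hunif s ⟨hs.1, hs.2.trans (hsubT hs₂.1).2⟩ 0 ⟨le_rfl, ht.1.trans ht.2⟩ ?_
        rw [Real.dist_eq, sub_zero, abs_of_nonneg hs.1]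
        linarith [hs.2]
      have hF4 : ∀ x ∈ F, dist x (γ 0) ≤ ε / 4 := by
        intro x hx
        have h1 := hFd x hx _ hs₂.2
        have h2 := hnear s₂ ⟨hs₂.1.1, le_rfl⟩
        have h3 := dist_triangle x (γ s₂) (γ 0)
        linarith
      refine ⟨γ '' Icc 0 s₂ ∪ (closedBall (γ 0) (ε / 4) ∩ {z : ℂ | z.im ≤ 0}), ?_, ?_, ?_, ?_, ?_⟩
      · exact (isCompact_Icc.image_of_continuousOn (hct.mono (Icc_subset_Icc_right hs₂.1.2))).union
          ((isCompact_closedBall _ _).inter_right hLH)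
      · refine IsPreconnected.union (γ 0) ⟨0, ⟨le_rfl, hs₂.1.1⟩, rfl⟩
          ⟨mem_closedBall_self (by positivity), ?_⟩
          (isPreconnected_Icc.image _ (hct.mono (Icc_subset_Icc_right hs₂.1.2)))
          ((convex_closedBall _ _).inter hLHc).isPreconnected
        show (γ 0).im ≤ 0
        rw [h.start, Complex.ofReal_im]
      · intro x hx
        rcases hF hx with h1 | ⟨s, hs, rfl⟩
        · exact Or.inr ⟨mem_closedBall.2 (hF4 x hx), h1⟩
        · exact Or.inl ⟨s, ⟨hs.1, hmax' s ⟨hs, hx⟩⟩, rfl⟩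
      · rintro x (⟨s, hs, rfl⟩ | hx)
        · exact Or.inr ⟨s, ⟨hs.1, hs.2.trans hs₂.1.2⟩, rfl⟩
        · exact Or.inl hx.2
      · intro x hx y hy
        rw [mem_closedBall]
        have h1 := hF4 x hx
        have h2 : dist y (γ 0) ≤ ε / 4 := by
          rcases hy with ⟨s, hs, rfl⟩ | hy
          · linarith [hnear s hs]
          · exact mem_closedBall.1 hy.1
        have h3 := dist_triangle_right y x (γ 0)
        linarith
    · -- on the curve
      push Not at hm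
      have hnear : ∀ s ∈ Icc s₁ s₂, dist (γ s) (γ s₂) < ε / 8 := by
        intro s hs
        refine hunif s ⟨hs₁.1.1.trans hs.1, hs.2.trans (hsubT hs₂.1).2⟩ s₂ (hsubT hs₂.1) ?_
        rw [Real.dist_eq, abs_sub_comm, abs_of_nonneg (by linarith [hs.2])]
        rw [abs_sub_comm, abs_of_nonneg (by linarith)] at hd12
        linarith [hs.1]
      have hsub12 : Icc s₁ s₂ ⊆ Icc 0 t := Icc_subset_Icc hs₁.1.1 hs₂.1.2
      refine ⟨γ '' Icc s₁ s₂, isCompact_Icc.image_of_continuousOn (hct.mono hsub12),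
        isPreconnected_Icc.image _ (hct.mono hsub12), ?_, ?_, ?_⟩
      · intro x hx
        rcases hF hx with h1 | ⟨s, hs, rfl⟩
        · exact absurd (hm x hx) (not_lt.2 h1)
        · exact ⟨s, ⟨hmin' s ⟨hs, hx⟩, hmax' s ⟨hs, hx⟩⟩, rfl⟩
      · rintro _ ⟨s, hs, rfl⟩
        exact Or.inr ⟨s, hsub12 hs, rfl⟩
      · rintro x hx _ ⟨s, hs, rfl⟩
        rw [mem_closedBall]
        have h1 := hFd x hx _ hs₂.2
        have h2 := hnear s hs
        have h3 := dist_triangle_right (γ s) x (γ s₂)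
        linarith

/-- Points of the future of the trace are mapped close to the driver. -/
theorem Tr.tip (h : Tr W γ) (hW : Continuous W) (ht : 0 ≤ t) {r : ℝ} (hr : 0 < r) {η : ℝ}
    (hη : 0 < η) : ∃ u ∈ Ioo t (t + η), ‖Zf W (γ u) t‖ < r := by
  obtain ⟨δ, hδ, hc⟩ := Metric.continuousAt_iff.1 (hW.continuousAt (x := t)) (r / 8)
    (by positivity)
  obtain ⟨a, ha, k1, k2, k3⟩ : ∃ a > 0, a < η ∧ a < δ ∧ a ≤ r ^ 2 / 64 :=
    ⟨min (min (η / 2) (δ / 2)) (r ^ 2 / 64), by positivity,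
      (min_le_left _ _).trans_lt ((min_le_left _ _).trans_lt (by linarith)),
      (min_le_left _ _).trans_lt ((min_le_right _ _).trans_lt (by linarith)), min_le_right _ _⟩
  refine ⟨t + a, ⟨by linarith, by linarith⟩, ?_⟩
  refine ARCX.near_of_dying hW hr ht (T := t + a) (by linarith) (h.mem_dom ht (by linarith))
    (h.not_dom (by linarith) le_rfl) (by linarith) ?_
  intro u hu
  have : dist u t < δ := by
    rw [Real.dist_eq, abs_of_nonneg (by linarith [hu.1])]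
    linarith [hu.2]
  have := hc this
  rw [Real.dist_eq] at this
  exact this.le

/-- far points -/
theorem exists_far_bound (hW : Continuous W) (T : ℝ) : ∃ R > 0, ∀ t ∈ Icc 0 T, ∀ z : ℂ,
    0 < z.im → R ≤ ‖z‖ → z ∈ loewnerDomain W t ∧ 1 < ‖Zf W z t‖ := by
  obtain ⟨M, hM⟩ := isCompact_Icc.exists_bound_of_continuousOn (hW.continuousOn (s := Icc 0 T))
  refine ⟨|M| + |M| + 4 * √(|T| + 1) + 2, by positivity, ?_⟩
  intro t ht z hz hzR
  have hT1 : 0 < |T| + 1 := by positivity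
  have hq : 0 ≤ √(|T| + 1) := Real.sqrt_nonneg _
  have hM' : ∀ u ∈ Icc 0 t, |W u| ≤ |M| := fun u hu => by
    have := hM u ⟨hu.1, hu.2.trans ht.2⟩
    rw [Real.norm_eq_abs] at this
    exact this.trans (le_abs_self M)
  have hst : √t ≤ √(|T| + 1) := Real.sqrt_le_sqrt (ht.2.trans (by linarith [le_abs_self T]))
  have h0M : 0 ≤ |M| := abs_nonneg M
  rcases ht.1.eq_or_lt with h0 | h0
  · rw [← h0]
    refine ⟨dom_zero.2 hz, ?_⟩
    rw [Zf_zero hz]
    have h1 := norm_sub_norm_le z (W 0 : ℂ)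
    have h2 : ‖(W 0 : ℂ)‖ ≤ |M| := by
      rw [Complex.norm_real, Real.norm_eq_abs]
      exact hM' 0 ⟨le_rfl, ht.1⟩
    linarith
  · obtain ⟨h1, h2⟩ := far_alive hW h0 hM' hz (by
      have := Real.sqrt_nonneg t
      linarith)
    refine ⟨h1, ?_⟩
    have h3 := h2 t ⟨ht.1, le_rfl⟩
    have h4 := norm_Zf_ge (z := z) hM' ⟨ht.1, le_rfl⟩
    have h5 := norm_sub_norm_le z (gf W z t)
    rw [norm_sub_rev] at h5
    linarith

/-- **The trace is the uniform limit.** -/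
theorem Tr.near (h : Tr W γ) (hW : Continuous W) (T : ℝ) {ε : ℝ} (hε : 0 < ε) :
    ∃ r > 0, ∀ t ∈ Icc 0 T, ∀ z ∈ loewnerDomain W t, ‖Zf W z t‖ < r → dist z (γ t) ≤ ε := by
  obtain ⟨δ, hδ, hsmall⟩ := h.small_set T (ε := ε / 4) (by positivity)
  obtain ⟨R, hR0, hR⟩ := exists_far_bound hW T
  obtain ⟨δ', hδ', k1, k2⟩ : ∃ δ' > 0, δ' ≤ δ ∧ δ' ≤ ε / 4 :=
    ⟨min δ (ε / 4), by positivity, min_le_left _ _, min_le_right _ _⟩
  obtain ⟨K, hK⟩ : ∃ K, K = 2 * Real.pi * (Real.pi * R ^ 2) / δ' ^ 2 := ⟨_, rfl⟩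
  have hK0 : 0 ≤ K := by rw [hK]; positivity
  obtain ⟨r, hr⟩ : ∃ r, r = Real.exp (-(K + 1)) := ⟨_, rfl⟩
  have hr0 : 0 < r := by rw [hr]; exact Real.exp_pos _
  have hr1 : r < 1 := by
    have := Real.exp_lt_exp.2 (show -(K + 1) < 0 by linarith)
    rwa [Real.exp_zero, ← hr] at this
  have hlog : 2 * Real.pi * (Real.pi * R ^ 2) < δ' ^ 2 * Real.log (1 / r) := by
    have e1 : Real.log (1 / r) = K + 1 := by
      rw [one_div, Real.log_inv, hr, Real.log_exp, neg_neg]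
    have e2 : δ' ^ 2 * (K + 1) = 2 * Real.pi * (Real.pi * R ^ 2) + δ' ^ 2 := by
      rw [hK]
      field_simp
    rw [e1, e2]
    have : 0 < δ' ^ 2 := by positivity
    linarith
  refine ⟨r, hr0, ?_⟩
  intro t ht z hz hzr
  obtain ⟨ρ, hρ, hb, hd⟩ := exists_short_cut hW ht.1 hR0 (hR t ht) hr0 hr1 hδ' hlog
  have hρ0 : 0 < ρ := hr0.trans hρ.1
  have hne := closure_cut_meets ht.1 hW hρ0 hb
  have ho : IsOpen (loewnerDomain W t) := ARCX.isOpen_domain_nb ht.1 hW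
  obtain ⟨B, hBc, hBp, hFB, hBd, hBs⟩ := hsmall t ht (closure (cut W t ρ) ∩ (loewnerDomain W t)ᶜ)
    inter_subset_right (isClosed_closure.inter ho.isClosed_compl) hne (fun x hx y hy => by
      rw [dist_eq_norm]
      exact (hd x hx.1 y hy.1).trans k1)
  obtain ⟨x₀, hx₀⟩ := hne
  have hsub : closure (cut W t ρ) ∪ B ⊆ closedBall x₀ (ε / 4) := by
    rintro x (hx | hx)
    · rw [mem_closedBall, dist_eq_norm]
      exact (hd x hx x₀ hx₀.1).trans k2
    · exact hBs x₀ hx₀ hx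
  -- a far point
  obtain ⟨y, hyim, hyR, hyx⟩ : ∃ y : ℂ, 0 < y.im ∧ R ≤ ‖y‖ ∧ ε / 4 < ‖y - x₀‖ := by
    obtain ⟨L, hL⟩ : ∃ L : ℝ, L = R + ‖x₀‖ + ε := ⟨_, rfl⟩
    have hL0 : 0 < L := by rw [hL]; positivity
    have hn : ‖(L : ℂ) * Complex.I‖ = L := by
      rw [norm_mul, Complex.norm_I, mul_one, Complex.norm_real, Real.norm_of_nonneg hL0.le]
    refine ⟨(L : ℂ) * Complex.I, ?_, ?_, ?_⟩
    · simpa using hL0
    · rw [hn, hL]
      have := norm_nonneg x₀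
      linarith
    · have h1 := norm_sub_norm_le ((L : ℂ) * Complex.I) x₀
      rw [hn] at h1
      linarith
  obtain ⟨hyd, hy1⟩ := hR t ht y hyim hyR
  have key : ∀ x ∈ loewnerDomain W t, ‖Zf W x t‖ < r → ‖x - x₀‖ ≤ ε / 4 := by
    intro x hx hxr
    by_contra hcon
    exact not_joined_union ht.1 hW hx hyd (hxr.trans hρ.1) (hρ.2.trans hy1) hb hBc hBp hBd hFB
      (joined_outside (by positivity) (not_le.1 hcon) hyx hsub)
  have h1 := key z hz hzr
  have h2 : dist (γ t) x₀ ≤ ε / 4 + ε / 4 := by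
    have hγc : ContinuousWithinAt γ (Ici 0) t := h.cont t ht.1
    obtain ⟨η, hη, hγ⟩ := Metric.continuousWithinAt_iff.1 hγc (ε / 4) (by positivity)
    obtain ⟨u, hu, hur⟩ := h.tip hW ht.1 hr0 hη
    have h3 := key (γ u) (h.mem_dom ht.1 hu.1) hur
    have h4 := hγ (mem_Ici.2 (ht.1.trans hu.1.le)) (by
      rw [Real.dist_eq, abs_of_pos (by linarith [hu.1])]
      linarith [hu.2])
    have h5 := dist_triangle (γ t) (γ u) x₀
    have h6 := dist_comm (γ t) (γ u)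
    rw [← dist_eq_norm] at h3
    linarith
  have h6 := dist_triangle_right z (γ t) x₀
  rw [← dist_eq_norm] at h1
  linarith

/-- A compact set off the trace stays away from the driver. -/
theorem Tr.avoid (h : Tr W γ) (hW : Continuous W) (T : ℝ) {K : Set ℂ} (hK : IsCompact K)
    (hKγ : ∀ s ∈ Icc 0 T, γ s ∉ K) : ∃ r > 0, ∀ t ∈ Icc 0 T, ∀ z ∈ K, 0 < z.im →
      z ∈ loewnerDomain W t ∧ r ≤ ‖Zf W z t‖ := by
  obtain ⟨m, hm, hmd⟩ := exists_pos_bound (hK.prod (isCompact_Icc (a := (0 : ℝ)) (b := T)))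
    (f := fun q : ℂ × ℝ => dist q.1 (γ q.2))
    (continuous_dist.comp_continuousOn (continuousOn_fst.prodMk
      ((h.contT (T := T)).comp continuousOn_snd fun q hq => hq.2)))
    (fun q hq => dist_pos.2 fun he => hKγ q.2 hq.2 (he ▸ hq.1))
  obtain ⟨r, hr, hnear⟩ := h.near hW T (half_pos hm)
  refine ⟨r, hr, fun t ht z hz hzi => ?_⟩
  have hd : z ∈ loewnerDomain W t := by
    rw [h.dom t ht.1]
    refine ⟨hzi, ?_⟩
    rintro ⟨s, hs, rfl⟩
    exact hKγ s ⟨hs.1, hs.2.trans ht.2⟩ hz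
  refine ⟨hd, ?_⟩
  by_contra hcon
  have h1 := hnear t ht z hd (not_le.1 hcon)
  have h2 : m ≤ dist z (γ t) := hmd (z, t) ⟨hz, ht⟩
  linarith

end Vale.Agent.P153.R2.SS
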